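import Vale.Agent.P129BT.Mean
import Vale.Agent.P129B.Sum

/-!
# A mean which is invariant under commuting averaging operators
-/

set_option linter.unusedSectionVars false

namespace Vale.Agent.P129B

universe v

variable {N : Type v} [ZM N] {R : Type*} [Field R] [LinearOrder R] [IsStrictOrderedRing R]
  [Coded N R] [Tot N R] [DefAdd N R] [DefSub N R] [DefMul N R] [DefLE N R]
  {X : Type*} [Coded N X] [Tot N X] {I : Type*} [Coded N I] [Tot N I]

variable (N) in
/-- functions which are annihilated by a finite product of the operators -/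
def Killed (E : I → (X → R) → X → R) (f : X → R) : Prop :=
  ∀ S : Set (X → R), Intl N S → (fun _ => 0) ∈ S → (∀ i g, Intl N g → E i g ∈ S → g ∈ S) → f ∈ S

theorem Killed.zero {E : I → (X → R) → X → R} : Killed N E fun _ => 0 := fun _ _ h _ => h

theorem Killed.step {E : I → (X → R) → X → R} {g : X → R} (hg : Intl N g) (i : I)
    (h : Killed N E (E i g)) : Killed N E g := fun S a b c => c i g hg (h S a b c)

theorem Killed.ind {E : I → (X → R) → X → R} {P : (X → R) → Prop} (hP : DefF N P)
    (h0 : P fun _ => 0)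
    (hs : ∀ i g, Intl N g → P (E i g) → P g) {f : X → R} (h : Killed N E f) : P f :=
  (h {g | Intl N g ∧ P g} (intl_setOf hP) ⟨inferInstance, h0⟩
    fun i g hg H => ⟨hg, hs i g hg H.2⟩).2

theorem defF_killed {E : I → (X → R) → X → R} (hE : DefF N fun p : I × (X → R) => E p.1 p.2) :
    DefF N (Killed N E) := by
  unfold Killed
  fun_prop

/-- A mean which is invariant under commuting idempotent operators. -/
theorem exists_inv_mean [Nonempty X]
    (lub : ∀ S : Set R, Intl N S → S.Nonempty → BddAbove S → ∃ c, IsLUB S c)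
    {E : I → (X → R) → X → R} (hE : DefF N fun p : I × (X → R) => E p.1 p.2)
    (Eadd : ∀ i f g, Intl N f → Intl N g → E i (fun x => f x + g x) = fun x => E i f x + E i g x)
    (Emul : ∀ i t f, Intl N f → E i (fun x => t * f x) = fun x => t * E i f x)
    (Ecomm : ∀ i j f, Intl N f → E i (E j f) = E j (E i f))
    (Eidem : ∀ i f, Intl N f → E i (E i f) = E i f)
    (Eneg : ∀ i f, Intl N f → (∀ y, f y < 0) → ∀ x, E i f x < 0) :
    ∃ L : (X → R) → R, DefF N L ∧
      (∀ h k, BdOn N (fun _ => True) h → BdOn N (fun _ => True) k →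
        L (fun x => h x + k x) = L h + L k) ∧
      (∀ t h, BdOn N (fun _ => True) h → L (fun x => t * h x) = t * L h) ∧
      (∀ h, BdOn N (fun _ => True) h → ∀ b, (∀ x, h x ≤ b) → L h ≤ b) ∧
      ∀ i f g, BdOn N (fun _ => True) f → BdOn N (fun _ => True) g → (∀ x, E i f x ≤ g x) →
        L f ≤ L g := by
  have hK := defF_killed hE
  have hI : ∀ i f, Intl N f → Intl N (E i f) := fun i f _ => hE.intl (i, f)
  have E0 : ∀ i, E i (fun _ => 0) = fun _ => 0 := fun i => by
    simpa using Emul i 0 (fun _ => 0) inferInstance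
  have k1 : ∀ f, Killed N E f → ∀ j, Killed N E (E j f) := fun f hf =>
    hf.ind (P := fun f => ∀ j, Killed N E (E j f)) (by fun_prop)
      (fun j => (E0 j).symm ▸ Killed.zero)
      fun i g hg H j => Killed.step (hI j g hg) i (Ecomm j i g hg ▸ H j)
  have k2 : ∀ u, Killed N E u → ∀ w, Intl N w → Killed N E w → Killed N E fun x => u x + w x :=
    fun u hu => hu.ind (P := fun u => ∀ w, Intl N w → Killed N E w → Killed N E fun x => u x + w x)
      (by fun_prop) (fun w _ hw => by simpa using hw)
      fun i g hg H w hw k => Killed.step (DefF.toIntl (by fun_prop)) i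
        ((Eadd i g w hg hw).symm ▸ H _ (hI i w hw) (k1 w k i))
  have k3 : ∀ t u, Killed N E u → Killed N E fun x => t * u x := fun t u hu =>
    hu.ind (P := fun u => Killed N E fun x => t * u x) (by fun_prop)
      (by simpa using Killed.zero)
      fun i g hg H => Killed.step (DefF.toIntl (by fun_prop)) i ((Emul i t g hg).symm ▸ H)
  have k4 : ∀ u, Killed N E u → ∃ x, True ∧ 0 ≤ u x := fun u hu =>
    hu.ind (P := fun u => ∃ x, True ∧ 0 ≤ u x) (by fun_prop)
      ⟨Classical.arbitrary X, trivial, le_rfl⟩ fun i g hg ⟨x, _, hx⟩ => by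
        by_contra hc
        exact absurd (Eneg i g hg (fun y => not_le.1 fun h => hc ⟨y, trivial, h⟩) x) (not_lt.2 hx)
  have k5 : ∀ i f, Intl N f → Killed N E fun x => E i f x + -1 * f x := fun i f hf => by
    have := hI i f hf
    refine Killed.step (DefF.toIntl (by fun_prop)) i ?_
    rw [Eadd i _ _ this (DefF.toIntl (by fun_prop)), Emul i _ f hf, Eidem i f hf]
    simpa using Killed.zero
  obtain ⟨L, h1, h2, h3, h4⟩ := exists_mean lub (B := fun _ : X => True) (DefF.const True) hK
    Killed.zero (fun u w _ hw a b => k2 u a w hw b) (fun t u _ _ a => k3 t u a) fun u _ a => k4 u a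
  refine ⟨L, h1, h2, h3, fun h a b hb => h4 h a _ inferInstance Killed.zero b
    fun x _ => by simpa using hb x, fun i f g a b H => ?_⟩
  have := hI i f a.1
  have := a.1
  have h5 := h4 _ (a.add (b.mul (-1))) _ (DefF.toIntl (by fun_prop)) (k5 i f a.1) 0
    fun x _ => by linarith [H x]
  rw [h2 _ _ a (b.mul (-1)), h3 _ _ b] at h5
  linarith

end Vale.Agent.P129B
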