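import Vale.Agent.P129B72.Inv
import Vale.Agent.P129BQ.Defs

/-!
# A finitely additive product probability inside a model
-/

set_option linter.unusedSectionVars false

namespace Vale.Agent.P129B

universe v

variable {N : Type v} [ZM N] {R : Type*} [Field R] [LinearOrder R] [IsStrictOrderedRing R]
  [Coded N R] [Tot N R] [DefAdd N R] [DefSub N R] [DefMul N R] [DefLE N R]

variable (R) in
/-- a natural number of the model as a real number -/
noncomputable def mcast (n : NN N) : R := isum (fun _ => (1 : R)) n

@[fun_prop] theorem DefF.mcast {α : Type*} [Coded N α] {n : α → NN N} (hn : DefF N n) :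
    DefF N (fun a => mcast R (n a)) := by
  unfold P129B.mcast
  fun_prop

theorem mcast_zero : mcast R (0 : NN N) = 0 := isum_zero _

theorem mcast_succ (n : NN N) : mcast R (n + 1) = mcast R n + 1 := isum_succ (by fun_prop) n

theorem mcast_add (m n : NN N) : mcast R (m + n) = mcast R m + mcast R n :=
  isum_add_range (by fun_prop) m n

theorem mcast_mul (m n : NN N) : mcast R (m * n) = mcast R m * mcast R n :=
  NN.ind (P := fun n => mcast R (m * n) = mcast R m * mcast R n) (by fun_prop)
    (by rw [mul_zero, mcast_zero, mul_zero])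
    (fun n ih => by rw [mul_add_one, mcast_add, ih, mcast_succ, mul_add_one]) n

theorem mcast_nonneg (n : NN N) : 0 ≤ mcast R n := isum_nonneg (by fun_prop) fun _ _ => zero_le_one

theorem mcast_mono {m n : NN N} (h : m ≤ n) : mcast R m ≤ mcast R n :=
  isum_mono (by fun_prop) h fun _ _ => zero_le_one

theorem mcast_succ_pos (n : NN N) : 0 < mcast R (n + 1) := by
  rw [mcast_succ]
  linarith [mcast_nonneg (R := R) n]

theorem isum_const_mcast (a : R) (n : NN N) : isum (fun _ => a) n = mcast R n * a := by
  rw [mcast, isum_mul a (by fun_prop)]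
  simp only [one_mul]

theorem exists_lt_mcast (lub : ∀ S : Set R, Intl N S → S.Nonempty → BddAbove S → ∃ c, IsLUB S c)
    (x : R) : ∃ n : NN N, x < mcast R n := by
  by_contra hc
  obtain ⟨c, c1, c2⟩ := lub {y | ∃ n : NN N, mcast R n = y} (intl_setOfT (by fun_prop))
    ⟨_, 0, rfl⟩ ⟨x, fun y ⟨n, hn⟩ => hn ▸ not_lt.1 fun h => hc ⟨n, h⟩⟩
  have : c ≤ c - 1 := c2 fun y ⟨n, hn⟩ => by
    have := c1 ⟨n + 1, rfl⟩
    rw [mcast_succ, hn] at this
    linarith
  linarith

open Classical in
theorem exists_count_mcast {B : NN N → Prop} (hB : DefF N B) (n : NN N) :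
    ∃ c : NN N, mcast R c = isum (fun x => if B x then (1 : R) else 0) n ∧
      ∃ f : NN N → NN N, Intl N f ∧ (∀ i j, i < j → j < c → f i < f j) ∧
        ∀ i, i < c → f i < n ∧ B (f i) := by
  refine NN.ind (P := fun n => ∃ c : NN N,
    mcast R c = isum (fun x => if B x then (1 : R) else 0) n ∧
      ∃ f : NN N → NN N, Intl N f ∧ (∀ i j, i < j → j < c → f i < f j) ∧
        ∀ i, i < c → f i < n ∧ B (f i)) (by fun_prop)
    ⟨0, mcast_zero.trans (isum_zero _).symm, fun _ => 0, inferInstance,
      fun _ j _ h => absurd h (NN.not_lt_zero' j), fun i h => absurd h (NN.not_lt_zero' i)⟩ ?_ n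
  rintro n ⟨c, hc, f, f1, f2, f3⟩
  rw [isum_succ (by fun_prop), ← hc]
  by_cases h : B n
  · refine ⟨c + 1, by rw [if_pos h, mcast_succ], Function.update f c n, inferInstance,
      fun i j hij hj => ?_, fun i hi => ?_⟩
    · rcases NN.lt_add_one_cases hj with hj | rfl
      · rw [Function.update_of_ne hj.ne, Function.update_of_ne (hij.trans hj).ne]
        exact f2 i j hij hj
      · rw [Function.update_self, Function.update_of_ne hij.ne]
        exact (f3 i hij).1
    · rcases NN.lt_add_one_cases hi with hi | rfl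
      · rw [Function.update_of_ne hi.ne]
        exact ⟨(f3 i hi).1.trans (NN.lt_add_one n), (f3 i hi).2⟩
      · rw [Function.update_self]
        exact ⟨NN.lt_add_one n, h⟩
  · exact ⟨c, by rw [if_neg h, add_zero], f, f1, f2,
      fun i hi => ⟨(f3 i hi).1.trans (NN.lt_add_one n), (f3 i hi).2⟩⟩

section Prod

variable {K : Type*} [Coded N K] [Tot N K]

open Classical in
/-- changing one coordinate -/
noncomputable def updI (ω : IS N (K × NN N × NN N → NN N)) (i : K × NN N × NN N) (x : NN N) :
    IS N (K × NN N × NN N → NN N) :=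
  ⟨Function.update ω.1 i x, inferInstance, trivial⟩

@[fun_prop] theorem DefF.updI {α : Type*} [Coded N α] {ω : α → IS N (K × NN N × NN N → NN N)}
    {i : α → K × NN N × NN N} {x : α → NN N} (hω : DefF N ω) (hi : DefF N i) (hx : DefF N x) :
    DefF N (fun a => updI (ω a) (i a) (x a)) := by
  classical
  exact defF_st (DefF.update hω.stVal hi hx)

theorem updI_idem (ω : IS N (K × NN N × NN N → NN N)) (i : K × NN N × NN N) (x y : NN N) :
    updI (updI ω i x) i y = updI ω i y := by
  refine Subtype.ext ?_
  simp only [updI, Function.update_idem]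

theorem updI_comm (ω : IS N (K × NN N × NN N → NN N)) {i j : K × NN N × NN N} (h : i ≠ j)
    (x y : NN N) : updI (updI ω i x) j y = updI (updI ω j y) i x := by
  refine Subtype.ext (funext fun k => ?_)
  simp only [updI, Function.update_apply]
  split_ifs with h1 h2
  · exact absurd (h2.symm.trans h1) h
  all_goals rfl

theorem updI_self (ω : IS N (K × NN N × NN N → NN N)) (i : K × NN N × NN N) (x : NN N) :
    (updI ω i x).1 i = x := by
  classical
  exact Function.update_self i x ω.1

theorem updI_ne (ω : IS N (K × NN N × NN N → NN N)) {i j : K × NN N × NN N} (h : j ≠ i)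
    (x : NN N) : (updI ω i x).1 j = ω.1 j := by
  classical
  exact Function.update_of_ne h x ω.1

/-- the average over one coordinate -/
noncomputable def avgI (i : K × NN N × NN N) (f : IS N (K × NN N × NN N → NN N) → R)
    (ω : IS N (K × NN N × NN N → NN N)) : R :=
  (mcast R (i.2.2 + 1))⁻¹ * isum (fun x => f (updI ω i x)) (i.2.2 + 1)

theorem defF_avgI : DefF N fun p : (K × NN N × NN N) × (IS N (K × NN N × NN N → NN N) → R) =>
    avgI p.1 p.2 := by
  have := defInv_of_mul (N := N) (β := R)
  unfold avgI
  fun_prop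

theorem exists_prod_mean
    (lub : ∀ S : Set R, Intl N S → S.Nonempty → BddAbove S → ∃ c, IsLUB S c) :
    ∃ L : (IS N (K × NN N × NN N → NN N) → R) → R, DefF N L ∧
      (∀ h k, BdOn N (fun _ => True) h → BdOn N (fun _ => True) k →
        L (fun x => h x + k x) = L h + L k) ∧
      (∀ t h, BdOn N (fun _ => True) h → L (fun x => t * h x) = t * L h) ∧
      (∀ h, BdOn N (fun _ => True) h → ∀ b, (∀ x, h x ≤ b) → L h ≤ b) ∧
      ∀ i f g, BdOn N (fun _ => True) f → BdOn N (fun _ => True) g → (∀ x, avgI i f x ≤ g x) →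
        L f ≤ L g := by
  have := defInv_of_mul (N := N) (β := R)
  have : Nonempty (IS N (K × NN N × NN N → NN N)) := ⟨⟨fun _ => 0, inferInstance, trivial⟩⟩
  have h1 : ∀ (i : K × NN N × NN N) t (f : IS N (K × NN N × NN N → NN N) → R), Intl N f →
      avgI i (fun x => t * f x) = fun x => t * avgI i f x := fun i t f hf => funext fun ω => by
    simp only [avgI]
    rw [← mul_isum t (by fun_prop)]
    ring
  refine exists_inv_mean lub defF_avgI (fun i f g hf hg => funext fun ω => ?_) h1
    (fun i j f hf => ?_) (fun i f hf => funext fun ω => ?_) fun i f hf H ω => ?_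
  · simp only [avgI]
    rw [isum_add (by fun_prop) (by fun_prop), mul_add]
  · by_cases h : i = j
    · rw [h]
    · funext ω
      simp only [avgI]
      rw [← mul_isum _ (by fun_prop), ← mul_isum _ (by fun_prop), isum_comm (by fun_prop),
        mul_left_comm]
      simp only [updI_comm ω h]
  · simp only [avgI, updI_idem]
    rw [isum_const_mcast, inv_mul_cancel_left₀ (mcast_succ_pos _).ne']
  · refine mul_neg_of_pos_of_neg (inv_pos.2 (mcast_succ_pos _)) ?_
    rw [isum_succ (by fun_prop)]
    have h2 := isum_le_isum (f := fun x => f (updI ω i x)) (g := fun _ => 0) (n := i.2.2)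
      (by fun_prop) (by fun_prop) fun x _ => (H _).le
    rw [isum_const_zero] at h2
    linarith [H (updI ω i i.2.2)]

end Prod

open Classical in
/-- indicator functions -/
noncomputable def indR (R : Type*) [Zero R] [One R] {X : Type*} (A : Set X) (x : X) : R :=
  if x ∈ A then 1 else 0

theorem defF_indR {X : Type*} [Coded N X] [Tot N X] : DefF N (indR R (X := X)) := by
  unfold indR
  fun_prop

theorem bdOn_indR {X : Type*} [Coded N X] [Tot N X] {A : Set X} (hA : Intl N A) :
    BdOn N (fun _ => True) (indR R A) :=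
  ⟨defF_indR.intl A, 1, fun x _ => by unfold indR; split_ifs <;> simp⟩

/-- **The product probability.** -/
theorem exists_MS {K : Type*} [Coded N K] [Tot N K]
    (lub : ∀ S : Set R, Intl N S → S.Nonempty → BddAbove S → ∃ c, IsLUB S c) :
    Nonempty (MS N K (IS N (K × NN N × NN N → NN N)) R fun k => (k + 1) ^ 2) := by
  classical
  have := defInv_of_mul (N := N) (β := R)
  obtain ⟨L, h1, h2, h3, h4, h5⟩ := exists_prod_mean (K := K) lub
  have ge : ∀ h, BdOn N (fun _ => True) h → ∀ b, (∀ x, b ≤ h x) → b ≤ L h := fun h a b hb => by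
    have := h4 _ (a.mul (-1)) (-b) fun x => by linarith [hb x]
    rw [h3 _ _ a] at this
    linarith
  have hp := fun k : NN N => mcast_succ_pos (R := R) k
  refine ⟨{
    μ := fun A => L (indR R A)
    cd := fun ω a k M => min (ω.1 (a, k, M)) M
    upd := fun ω a k M x => updI ω (a, k, M) x
    h := fun k => 2 * (mcast R (k + 1))⁻¹
    dμ := h1.comp defF_indR
    dcd := by fun_prop
    dupd := by fun_prop
    dh := by fun_prop
    dw := by fun_prop
    lub := lub
    nonneg := fun A hA => ge _ (bdOn_indR hA) 0 fun x => by unfold indR; split_ifs <;> simp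
    empty := le_antisymm (h4 _ (bdOn_indR inferInstance) 0 fun x => by simp [indR])
      (ge _ (bdOn_indR inferInstance) 0 fun x => by simp [indR])
    univ := le_antisymm (h4 _ (bdOn_indR inferInstance) 1 fun x => by simp [indR])
      (ge _ (bdOn_indR inferInstance) 1 fun x => by simp [indR])
    union := fun A B hA hB => ?_
    cd_le := fun ω a k M => min_le_right _ _
    cd_upd := fun ω a k M b l L x hb => by
      rw [updI_ne ω fun e => hb (congrArg Prod.fst e).symm]
    h_pos := fun k => mul_pos two_pos (inv_pos.2 (hp k))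
    h_lt := fun k => mul_lt_mul_of_pos_left (inv_strictAnti₀ (hp k) (by
      rw [mcast_succ (k + 1)]; exact lt_add_one _)) two_pos
    h_lim := fun ε hε => ?_
    ind := fun a k M C U hC hU inv cnt sub => ?_ }⟩
  · rw [← h2 _ _ (bdOn_indR inferInstance) (bdOn_indR inferInstance),
      ← h2 _ _ (bdOn_indR hA) (bdOn_indR hB)]
    congr 1
    funext x
    by_cases ha : x ∈ A <;> by_cases hb : x ∈ B <;> simp [indR, ha, hb]
  · obtain ⟨n, hn⟩ := exists_lt_mcast lub (2 / ε)
    refine ⟨n, ?_⟩
    rw [mul_inv_lt_iff₀ (hp n), mcast_succ]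
    rw [div_lt_iff₀ hε] at hn
    nlinarith
  · have hB : Intl N {ω : IS N (K × NN N × NN N → NN N) | ω ∈ C (min (ω.1 (a, k, M)) M)} :=
      intl_setOfT (by fun_prop)
    rw [← h3 _ _ (bdOn_indR hU)]
    refine h5 (a, k, M) _ _ (bdOn_indR hB) ((bdOn_indR hU).mul _) fun ω => ?_
    have hi := (bdOn_indR (R := R) hB).1
    have e : isum (fun x => indR R {ω : IS N (K × NN N × NN N → NN N) |
        ω ∈ C (min (ω.1 (a, k, M)) M)} (updI ω (a, k, M) x)) (M + 1) =
        isum (fun x => if ω ∈ C x then (1 : R) else 0) (M + 1) :=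
      isum_congr (by fun_prop) (by fun_prop) fun x hx => by
        simp only [indR, Set.mem_ofPred_eq, updI_self, min_eq_left (NN.lt_add_one_iff.1 hx),
          inv x x ω]
    simp only [avgI]
    rw [e]
    by_cases hω : ω ∈ U
    · obtain ⟨c, c1, f, f1, f2, f3⟩ := exists_count_mcast (R := R) (B := fun x => ω ∈ C x)
        (by fun_prop) (M + 1)
      have c2 := mcast_mono (R := R)
        (cnt ω c ⟨f, f1, f2, fun i hi => ⟨NN.lt_add_one_iff.1 (f3 i hi).1, (f3 i hi).2⟩⟩)
      rw [sq, mcast_mul, mcast_mul] at c2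
      rw [← c1, indR, if_pos hω, mul_one, inv_mul_le_iff₀ (hp M), mcast_succ (k + 1)]
      have c3 := mcast_nonneg (R := R) c
      have c4 : 1 ≤ mcast R (k + 1) := by
        rw [mcast_succ]
        linarith [mcast_nonneg (R := R) k]
      generalize mcast R (k + 1) = t at c2 c4
      have c5 : 2 * t⁻¹ - 2 * (t + 1)⁻¹ = 2 / (t * (t + 1)) := by
        field_simp
        ring
      rw [c5, ← mul_div_assoc, le_div_iff₀ (by positivity)]
      nlinarith [mul_nonneg c3 (mul_nonneg (zero_le_one.trans c4) (sub_nonneg.2 c4))]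
    · rw [isum_eq_zero (by fun_prop) fun x hx =>
        if_neg fun h => hω (sub x (NN.lt_add_one_iff.1 hx) h)]
      simp [indR, hω]

end Vale.Agent.P129B
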